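import Vale.Agent.P153L.B1
import Vale.Agent.P153L.RI
import Vale.Agent.P152.A5N

/-! The first spin has mean zero in the limit, and the zero boundary condition has the same limit.
`mean0`: `nonCoex` and `symB` (`arm_not`) give `NoPerc` for both colours; for `x ∈ sqr n`, `n ≤ m ≤ k`, `D = sqr k`:
`{x ∈ Wd} ⊆ snd ⁻¹' (Arm true n m ∪ Arm false n m)` (`arm_of_cn`), `meanI`, `J_fst`, let `k → ∞`.
`fam_zero`: for an upper set `E` depending on `F`, the function `∑ x ∈ F, 1[r x] - 1_E` and `1_E` are monotone; `holley` with `w_lat'`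
(`M = D`, `N` a square containing `cl D`, `ex_indep`) gives `0 ≤ nu⁺ E - nu⁰ E ≤ ∑ x ∈ F, (nu⁺ {r x} - nu⁰ {r x})`, and
`nu⁰ {r x} ≥ 1 / 2` by `meanI`, `nu⁺ {r x} → 1 / 2` by `mean0`. Then `loc_ind`. -/

open Finset Filter Topology
open scoped Classical

noncomputable section

namespace Vale.Agent.P153L

open P152.GL

theorem z1_sym (hT : NoT) (n m : ℕ) :
    lJ (Prod.snd ⁻¹' Arm false n m) = lJ (Prod.snd ⁻¹' Arm true n m) := by
  rw [← symB hT (loc_arm true n m), ← arm_not n m]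
  rfl

theorem z1_np (hT : NoT) : NoPerc (fun E => lJ (Prod.snd ⁻¹' E)) true := by
  rcases nonCoex 1 _ (fldB hT) (feB hT true) (feB hT false) with h | h
  · exact h
  · intro n ε hε
    obtain ⟨m, h1, h2⟩ := h n ε hε
    exact ⟨m, h1, (z1_sym hT n m).symm.trans_le h2⟩

theorem z1_arm {n m k : ℕ} (hnm : n ≤ m) (hmk : m ≤ k) {x : Pt} (hx : x ∈ sqr n) {p : Col × Col}
    (h : x ∈ Wd (sqr k) p) : p.2 ∈ Arm (p.2 x) n m := by
  obtain ⟨y, hy, h⟩ := h
  refine arm_of_cn hnm hx (fun h1 => hy (a5l_sub hmk h1)) ?_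
  clear hx
  induction h with
  | refl => exact ⟨trivial, rfl, .refl⟩
  | @tail a c _ h2 ih =>
    rw [h2.2.2] at ih
    exact ⟨trivial, rfl, .head ⟨h2.1.symm, trivial, h2.2.2⟩ ih.2.2⟩

theorem z1_eq (k : ℕ) (x : Pt) : 2 * nu (sqr k) (cl (sqr k)) tt {r | r x = true} - 1 =
    J (sqr k) (cl (sqr k)) {p | x ∈ Wd (sqr k) p} := by
  have h1 := meanI (ray_sqr k) (sub_cl (D := sqr k)) x
  have h2 := J_fst (D := sqr k) (N := cl (sqr k)) {r | r x = true}
  have h3 := J_fst (D := sqr k) (N := cl (sqr k)) {r | r x = false}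
  have h4 := nu_add (D := sqr k) (N := cl (sqr k)) (ξ := tt) (E := {r | r x = true})
    (E' := {r | r x = false}) (Set.disjoint_left.2 fun r a b => by
      rw [Set.mem_ofPred_eq] at a b
      rw [a] at b
      exact Bool.noConfusion b)
  have e : ({r | r x = true} ∪ {r | r x = false} : Set Col) = Set.univ :=
    Set.eq_univ_of_forall fun r => by cases h : r x <;> simp [h]
  rw [e, nu_univ] at h4
  rw [← h1]
  change _ = J _ _ (Prod.fst ⁻¹' {r | r x = true}) - J _ _ (Prod.fst ⁻¹' {r | r x = false})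
  linarith

theorem mean0 (hT : NoT) (x : Pt) : lP {r | r x = true} = 1 / 2 := by
  obtain ⟨n, hn⟩ := ex_sqr {x}
  have hx : x ∈ sqr n := hn (mem_singleton_self x)
  have hl := ((fam_sqr.1 _ (loc_site x true)).const_mul 2).sub_const 1
  simp only [z1_eq] at hl
  have h0 : 0 ≤ 2 * lP {r | r x = true} - 1 :=
    ge_of_tendsto' hl fun k => div_nonneg (Nat.cast_nonneg _) (Nat.cast_nonneg _)
  have h1 : ∀ ε > 0, 2 * lP {r | r x = true} - 1 ≤ 0 + ε := fun ε hε => by
    obtain ⟨m, hm, h2⟩ := z1_np hT n (ε / 2) (by positivity)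
    have ht : ∀ s, Tendsto (fun k => J (sqr k) (cl (sqr k)) (Prod.snd ⁻¹' Arm s n m)) atTop
        (𝓝 (lJ (Prod.snd ⁻¹' Arm s n m))) := fun s => by
      obtain ⟨F, hF⟩ := loc_arm s n m
      exact tend_lJ hT fam_sqr (dep_snd hF)
    have h3 := le_of_tendsto_of_tendsto hl ((ht true).add (ht false))
      ((eventually_ge_atTop m).mono fun k hk =>
        (J_mono fun p _ hp => by
          have h4 := z1_arm hm hk hx hp
          cases h : p.2 x
          · exact .inr (h ▸ h4)
          · exact .inl (h ▸ h4)).trans (J_union_le _ _))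
    rw [z1_sym hT] at h3
    linarith
  linarith [le_of_forall_pos_le_add h1]

end Vale.Agent.P153L
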