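import Vale.Agent.P153L.NT
import Vale.Agent.P153L.Z1
import Vale.Agent.P153L.H3
import Vale.Agent.P153L.Z2
import Vale.Agent.P153L.E1

/-! Existence of the local limit. -/

open Finset Filter Topology
open scoped Classical

noncomputable section

namespace Vale.Agent.P153L

open P152.GL

theorem exists_lim : ∃ P : MeasureTheory.Measure P153.Cfg,
    MeasureTheory.IsProbabilityMeasure P ∧ P153.IsLimit P := by
  have hM : ∀ S : Finset Pt, ∃ M : ℕ, ∀ x ∈ S, ph x ∈ sqr M := fun S => by
    obtain ⟨M, hM⟩ := ex_sqr (S.image ph)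
    exact ⟨M, fun x hx => hM (mem_image_of_mem _ hx)⟩
  choose M hM using hM
  refine meas_ex (fun n => ?_) (fun S η => lJ (Ev (M S) S η)) fun c S η => ?_
  · exact Set.Finite.of_finite_image ((sp_bij 0 n).image_eq ▸ finite_toSet _) (sp_bij 0 n).injOn
  · simp only [hexP_eq (hM S)]
    exact tend_lJ noT (fam_zero (mean0 noT) (ray_hex (ph c)) (tend_hex (ph c))) (dep_ev _ _ _)

end Vale.Agent.P153L
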