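import Vale.Agent.P153L.Y1
import Vale.Agent.P153L.RJ
import Vale.Agent.P153L.EncT
import Vale.Agent.P152.A5N

/-! No long alternating paths. `nonCoex` for the encoded field. If false does not percolate: `arm_false`
(enlarge `m` with monotonicity of `Arm` in `m`, or choose `m` and use `tarm_mono`). If true does not percolate: for `D = sqr k`,
`nu (TArm) = J (fst) ≤ J (snd)` (`armJ`) `≤ nu (enc ⁻¹' Arm true) + nu (fl ⁻¹' enc ⁻¹' Arm true)` (`arm_true`), let `k → ∞`
(`fam_sqr`) and use `lP_fl` (`Arm true` is an upper set). -/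

open Finset Filter Topology
open scoped Classical

noncomputable section

namespace Vale.Agent.P153L

open P152.GL

theorem arm_anti {s : Bool} {n m m' : ℕ} (h : n ≤ m) (h' : m ≤ m') : Arm s n m' ⊆ Arm s n m := by
  rintro X ⟨x, hx, y, hy, hc⟩
  exact arm_of_cn h hx (fun e => hy (a5l_sub h' e)) (hc.mono (Set.subset_univ _) fun _ _ e => e)

theorem nt_mono {E E' : Set Col} (hE : Loc E) (hE' : Loc E') (h : E ⊆ E') : lP E ≤ lP E' :=
  le_of_tendsto_of_tendsto' (tend_lP hE) (tend_lP hE') fun _ => nu_mono h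

theorem nt_up (n m : ℕ) : IsUpperSet (enc ⁻¹' Arm true n m) := by
  rintro X Y hXY ⟨x, hx, y, hy, hc⟩
  exact ⟨x, hx, y, hy, hc.mono le_rfl fun z _ e =>
    top_le_iff.1 (le_of_eq_of_le (Eq.symm e) (enc_mono hXY z))⟩

theorem nt_loc {n m : ℕ} (h : n ≤ m) : Loc (TArm (sqr n) (sqr m)) :=
  ⟨_, dep_tarm fun _ e => a5l_sub h e⟩

theorem nt_fin {n m : ℕ} (h : n < m) (k : ℕ) :
    nu (sqr k) (cl (sqr k)) tt (TArm (sqr n) (sqr m)) ≤
      nu (sqr k) (cl (sqr k)) tt (enc ⁻¹' Arm true (2 * n + 1) (2 * m)) +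
        nu (sqr k) (cl (sqr k)) tt (fl ⁻¹' (enc ⁻¹' Arm true (2 * n + 1) (2 * m))) := by
  rw [← J_fst, ← J_fst, ← J_fst]
  refine (armJ (ray_sqr k) sub_cl _ _).trans (le_trans (J_mono ?_) (J_union_le _ _))
  intro p hp hb
  exact arm_true (mem_cfg.1 hp).2.2 h hb

theorem noT : NoT := by
  intro n ε hε
  rcases nonCoex 2 _ fld_enc (fe_enc true) (fe_enc false) with h | h
  · obtain ⟨m, hm, h⟩ := h (2 * n + 1) (ε / 2) (half_pos hε)
    have hL : Loc (enc ⁻¹' Arm true (2 * n + 1) (2 * m)) := loc_enc (loc_arm _ _ _)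
    have h1 : lP (enc ⁻¹' Arm true (2 * n + 1) (2 * m)) ≤ ε / 2 :=
      (nt_mono hL (loc_enc (loc_arm _ _ _))
        (Set.preimage_mono (arm_anti hm (by omega)))).trans h
    have h2 := lP_fl hL (nt_up _ _)
    have h3 := le_of_tendsto_of_tendsto' (fam_sqr.1 _ (nt_loc (n := n) (m := m) (by omega)))
      ((fam_sqr.1 _ hL).add (fam_sqr.1 (fl ⁻¹' _) hL.not)) (nt_fin (by omega))
    exact ⟨m, by omega, by linarith⟩
  · obtain ⟨m, hm, h⟩ := h (2 * n) ε hε
    refine ⟨m, by omega, le_trans (nt_mono (nt_loc (by omega)) (loc_enc (loc_arm _ _ _)) ?_) h⟩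
    exact fun r hr => arm_anti hm (by omega) (arm_false (by omega) hr)

end Vale.Agent.P153L
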